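import Vale.Agent.P232.H109.Trans

open MeasureTheory Set Filter Topology ContinuousLinearMap
open scoped Pointwise Convolution

namespace Vale.Agent.P232.H109

open Vale.Agent.P232

theorem abs_ind_sub {n : ℕ} (A B : Set (Fin n → ℝ)) (x : Fin n → ℝ) :
    |ind A x - ind B x| = ind (symmDiff A B) x := by
  by_cases hA : x ∈ A <;> by_cases hB : x ∈ B <;>
    simp [ind, hA, hB, Set.mem_symmDiff]

theorem vol_symmDiff_eq {n : ℕ} {A B : Set (Fin n → ℝ)} (hA : MeasurableSet A)
    (hB : MeasurableSet B) : vol (symmDiff A B) = ∫ x in cube n, |ind A x - ind B x| := by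
  rw [vol_eq_integral (hA.symmDiff hB)]
  congr 1
  ext x
  rw [abs_ind_sub]

theorem moll_eq' {n : ℕ} (φ : ContDiffBump (0 : Fin n → ℝ)) (E : Set (Fin n → ℝ))
    (x : Fin n → ℝ) : moll φ E x = ∫ z, φ.normed volume (x - z) * ind E z := by
  rw [moll_apply, ← integral_sub_left_eq_self (fun z => φ.normed volume (x - z) * ind E z) volume x]
  congr 1
  ext z
  rw [sub_sub_cancel]

/-- equicontinuity of the mollifications, uniformly in the set -/
theorem equi {n : ℕ} (φ : ContDiffBump (0 : Fin n → ℝ)) (x : Fin n → ℝ) {ε : ℝ} (hε : 0 < ε) :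
    ∃ δ > 0, ∀ y : Fin n → ℝ, ‖y - x‖ < δ → ∀ E : Set (Fin n → ℝ), MeasurableSet E →
      |moll φ E y - moll φ E x| < ε := by
  obtain ⟨K, hK⟩ := (φ.contDiff_normed (μ := volume) (n := 1)).lipschitzWith_of_hasCompactSupport
    φ.hasCompactSupport_normed one_ne_zero
  set B : Set (Fin n → ℝ) := Metric.closedBall x (φ.rOut + 1) with hB
  set V : ℝ := (volume B).toReal with hV
  have hV0 : 0 ≤ V := ENNReal.toReal_nonneg
  have hBfin : volume B ≠ ⊤ := (isCompact_closedBall x _).measure_lt_top.ne
  refine ⟨min 1 (ε / (K * V + 1)), by positivity, ?_⟩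
  intro y hy E hE
  have hy1 : ‖y - x‖ < 1 := hy.trans_le (min_le_left _ _)
  have hy2 : ‖y - x‖ < ε / (K * V + 1) := hy.trans_le (min_le_right _ _)
  have i1 : ∀ w : Fin n → ℝ, Integrable (fun z => φ.normed volume (w - z) * ind E z) := by
    intro w
    have := (integrable_moll_integrand φ hE w).comp_sub_left w
    refine this.congr ?_
    filter_upwards with z
    rw [sub_sub_cancel]
  rw [moll_eq', moll_eq', ← integral_sub (i1 y) (i1 x)]
  have hb : ∀ z, |φ.normed volume (y - z) * ind E z - φ.normed volume (x - z) * ind E z| ≤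
      B.indicator (fun _ => K * ‖y - x‖) z := by
    intro z
    rw [← sub_mul, abs_mul, abs_of_nonneg (indicator_nonneg' E z)]
    by_cases hz : z ∈ B
    · rw [Set.indicator_of_mem hz]
      have h1 := hK.dist_le_mul (y - z) (x - z)
      rw [Real.dist_eq, dist_eq_norm, sub_sub_sub_cancel_right] at h1
      exact (mul_le_of_le_one_right (abs_nonneg _) (indicator_le_one' E z)).trans h1
    · rw [Set.indicator_of_notMem hz]
      have hz' : φ.rOut + 1 < ‖z - x‖ := by
        rw [hB, Metric.mem_closedBall, dist_eq_norm, not_le] at hz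
        exact hz
      have e1 : φ.normed volume (x - z) = 0 := by
        have : x - z ∉ Function.support (φ.normed volume) := by
          rw [φ.support_normed_eq, Metric.mem_ball, dist_zero_right, not_lt, norm_sub_rev]
          linarith
        exact Function.notMem_support.mp this
      have e2 : φ.normed volume (y - z) = 0 := by
        have : y - z ∉ Function.support (φ.normed volume) := by
          rw [φ.support_normed_eq, Metric.mem_ball, dist_zero_right, not_lt, norm_sub_rev]
          have : ‖z - x‖ ≤ ‖z - y‖ + ‖y - x‖ := norm_sub_le_norm_sub_add_norm_sub z y x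
          linarith
        exact Function.notMem_support.mp this
      rw [e1, e2]
      simp
  calc |∫ z, (φ.normed volume (y - z) * ind E z - φ.normed volume (x - z) * ind E z)|
      ≤ ∫ z, |φ.normed volume (y - z) * ind E z - φ.normed volume (x - z) * ind E z| :=
        abs_integral_le_integral_abs
    _ ≤ ∫ z, B.indicator (fun _ => K * ‖y - x‖) z := by
        apply integral_mono ((i1 y).sub (i1 x)).abs
        · exact (integrable_indicator_iff Metric.isClosed_closedBall.measurableSet).mpr
            (integrableOn_const hBfin)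
        · exact hb
    _ = V * (K * ‖y - x‖) := by
        rw [integral_indicator Metric.isClosed_closedBall.measurableSet]
        rw [setIntegral_const, smul_eq_mul]
        rfl
    _ < ε := by
        have h3 : 0 < (K : ℝ) * V + 1 := by positivity
        rw [lt_div_iff₀ h3] at hy2
        have h4 : V * (K * ‖y - x‖) ≤ ‖y - x‖ * (K * V + 1) := by
          nlinarith [norm_nonneg (y - x)]
        linarith

/-- weak compactness -/
theorem exists_subseq_moll {n : ℕ} {E : ℕ → Set (Fin n → ℝ)} (hE : ∀ k, MeasurableSet (E k)) :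
    ∃ σ : ℕ → ℕ, StrictMono σ ∧ ∀ (j : ℕ) (x : Fin n → ℝ),
      ∃ l, Tendsto (fun k => moll (bump n j) (E (σ k)) x) atTop (𝓝 l) := by
  let F : ℕ → (ℕ × (Fin n → ℚ)) → Icc (0:ℝ) 1 := fun k p =>
    ⟨moll (bump n p.1) (E k) (fun i => (p.2 i : ℝ)), moll_nonneg _ _ _, moll_le_one _ (hE k) _⟩
  obtain ⟨a, σ, hσ, ha⟩ := CompactSpace.tendsto_subseq F
  refine ⟨σ, hσ, fun j x => ?_⟩
  apply cauchySeq_tendsto_of_complete
  rw [Metric.cauchySeq_iff]
  intro ε hε
  obtain ⟨δ, hδ, hq⟩ := equi (bump n j) x (show 0 < ε / 3 by positivity)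
  have hex : ∀ i, ∃ q : ℚ, x i < q ∧ (q : ℝ) < x i + δ / 2 := fun i =>
    exists_rat_btwn (by linarith)
  choose q hq1 hq2 using hex
  have hqn : ‖(fun i => (q i : ℝ)) - x‖ < δ := by
    refine lt_of_le_of_lt ?_ (half_lt_self hδ)
    rw [pi_norm_le_iff_of_nonneg (by positivity)]
    intro i
    rw [Real.norm_eq_abs, abs_le]
    have := hq1 i
    have := hq2 i
    simp only [Pi.sub_apply]
    constructor <;> linarith
  have hconv : Tendsto (fun k => moll (bump n j) (E (σ k)) (fun i => (q i : ℝ))) atTop
      (𝓝 (a (j, q) : ℝ)) := by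
    have h1 := (tendsto_pi_nhds.mp ha) (j, q)
    exact (continuous_subtype_val.tendsto _).comp h1
  obtain ⟨N, hN⟩ := Metric.cauchySeq_iff.mp hconv.cauchySeq (ε / 3) (by positivity)
  refine ⟨N, fun k hk l hl => ?_⟩
  have c1 := hq _ hqn (E (σ k)) (hE _)
  have c2 := hq _ hqn (E (σ l)) (hE _)
  have c3 := hN k hk l hl
  rw [Real.dist_eq] at c3 ⊢
  rw [abs_lt] at c1 c2 c3 ⊢
  constructor <;> linarith [c1.1, c1.2, c2.1, c2.2, c3.1, c3.2]

theorem cauchy_of_moll {n : ℕ} {E : ℕ → Set (Fin n → ℝ)} (hE : ∀ k, MeasurableSet (E k))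
    (hp : ∀ k, IsPeriodic (E k)) {C : ℝ}
    (hC : ∀ k X, TestField X → ∫ x in E k ∩ cube n, divergence X x ≤ C)
    (hm : ∀ (j : ℕ) (x : Fin n → ℝ), ∃ l, Tendsto (fun k => moll (bump n j) (E k) x) atTop (𝓝 l))
    {ε : ℝ} (hε : 0 < ε) : ∃ N, ∀ k ≥ N, ∀ l ≥ N, vol (symmDiff (E k) (E l)) < ε := by
  -- choose j
  have hr : Tendsto (fun j => Real.sqrt n * (bump n j).rOut * C) atTop (𝓝 (Real.sqrt n * 0 * C)) := by
    apply Tendsto.mul_const
    apply Tendsto.const_mul
    simp only [bump]
    exact tendsto_const_div_atTop_nhds_zero_nat 2 |>.comp (tendsto_add_atTop_nat 1) |>.congr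
      (fun k => by simp)
  rw [mul_zero, zero_mul] at hr
  obtain ⟨j, hj⟩ := ((tendsto_order.mp hr).2 (ε / 4) (by positivity)).exists
  choose g hg using fun x => hm j x
  have hgm : AEStronglyMeasurable g (volume.restrict (cube n)) := by
    have : StronglyMeasurable g := by
      refine stronglyMeasurable_of_tendsto atTop (f := fun k => moll (bump n j) (E k)) (fun k => ?_) ?_
      · exact (contDiff_moll _ (hE k)).continuous.stronglyMeasurable
      · rw [tendsto_pi_nhds]; exact hg
    exact this.aestronglyMeasurable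
  have hlim : Tendsto (fun k => ∫ x in cube n, |moll (bump n j) (E k) x - g x|) atTop (𝓝 0) := by
    have : Tendsto (fun k => ∫ x in cube n, |moll (bump n j) (E k) x - g x|) atTop
        (𝓝 (∫ x in cube n, (0:ℝ))) := by
      apply tendsto_integral_of_dominated_convergence (fun _ => (2:ℝ))
      · intro k
        exact (((contDiff_moll _ (hE k)).continuous.aestronglyMeasurable).sub hgm).norm
      · exact integrable_const _
      · intro k
        filter_upwards with x
        have a1 := moll_nonneg (bump n j) (E k) x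
        have a2 := moll_le_one (bump n j) (hE k) x
        have a3 : 0 ≤ g x := ge_of_tendsto (hg x) (Eventually.of_forall fun k => moll_nonneg _ _ _)
        have a4 : g x ≤ 1 := le_of_tendsto (hg x)
          (Eventually.of_forall fun k => moll_le_one _ (hE k) _)
        rw [Real.norm_eq_abs, abs_abs, abs_le]
        constructor <;> linarith
      · filter_upwards with x
        have := ((hg x).sub_const (g x)).abs
        simpa using this
    simpa using this
  obtain ⟨N, hN⟩ := eventually_atTop.mp ((tendsto_order.mp hlim).2 (ε / 4) (by positivity))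
  refine ⟨N, fun k hk l hl => ?_⟩
  rw [vol_symmDiff_eq (hE k) (hE l)]
  have c1 := integral_moll_sub_le (hE k) (hp k) (hC k) (bump n j)
  have c2 := integral_moll_sub_le (hE l) (hp l) (hC l) (bump n j)
  have c3 := hN k hk
  have c4 := hN l hl
  have ik : ∀ k, Integrable (moll (bump n j) (E k)) (volume.restrict (cube n)) := fun k =>
    integrableOn_cube (contDiff_moll _ (hE k)).continuous
  have ie : ∀ k, Integrable (ind (E k)) (volume.restrict (cube n)) := fun k =>
    integrableOn_indicator (hE k)
  have ig : Integrable g (volume.restrict (cube n)) := by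
    refine (integrable_const (1:ℝ)).mono' hgm ?_
    filter_upwards with x
    have a3 : 0 ≤ g x := ge_of_tendsto (hg x) (Eventually.of_forall fun k => moll_nonneg _ _ _)
    have a4 : g x ≤ 1 := le_of_tendsto (hg x)
      (Eventually.of_forall fun k => moll_le_one _ (hE k) _)
    rw [Real.norm_eq_abs, abs_of_nonneg a3]
    exact a4
  have key : ∫ x in cube n, |ind (E k) x - ind (E l) x| ≤
      (((∫ x in cube n, |moll (bump n j) (E k) x - ind (E k) x|) +
        ∫ x in cube n, |moll (bump n j) (E k) x - g x|) +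
       ((∫ x in cube n, |moll (bump n j) (E l) x - ind (E l) x|) +
        ∫ x in cube n, |moll (bump n j) (E l) x - g x|)) := by
    have i1 : Integrable (fun x => |moll (bump n j) (E k) x - ind (E k) x|)
      (volume.restrict (cube n)) := ((ik k).sub (ie k)).abs
    have i2 : Integrable (fun x => |moll (bump n j) (E k) x - g x|)
      (volume.restrict (cube n)) := ((ik k).sub ig).abs
    have i3 : Integrable (fun x => |moll (bump n j) (E l) x - ind (E l) x|)
      (volume.restrict (cube n)) := ((ik l).sub (ie l)).abs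
    have i4 : Integrable (fun x => |moll (bump n j) (E l) x - g x|)
      (volume.restrict (cube n)) := ((ik l).sub ig).abs
    have e12 := integral_add i1 i2
    have e34 := integral_add i3 i4
    have e := integral_add (i1.add i2) (i3.add i4)
    simp only [Pi.add_apply] at e
    rw [← e12, ← e34, ← e]
    apply integral_mono ((ie k).sub (ie l)).abs ((i1.add i2).add (i3.add i4))
    intro x
    simp only [Pi.add_apply, Pi.sub_apply]
    have t1 := abs_sub_abs_le_abs_sub (ind (E k) x) (ind (E l) x)
    have u1 := neg_abs_le (moll (bump n j) (E k) x - ind (E k) x)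
    have u1' := le_abs_self (moll (bump n j) (E k) x - ind (E k) x)
    have u2 := neg_abs_le (moll (bump n j) (E k) x - g x)
    have u2' := le_abs_self (moll (bump n j) (E k) x - g x)
    have u3 := neg_abs_le (moll (bump n j) (E l) x - ind (E l) x)
    have u3' := le_abs_self (moll (bump n j) (E l) x - ind (E l) x)
    have u4 := neg_abs_le (moll (bump n j) (E l) x - g x)
    have u4' := le_abs_self (moll (bump n j) (E l) x - g x)
    rw [abs_le]
    constructor <;> linarith
  linarith

theorem isPeriodic_limsup {n : ℕ} {E : ℕ → Set (Fin n → ℝ)} (hp : ∀ k, IsPeriodic (E k)) :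
    IsPeriodic (⋂ m : ℕ, ⋃ k ≥ m, E k) := by
  intro x k
  simp only [mem_iInter, mem_iUnion]
  constructor <;> intro h m <;> obtain ⟨j, hj, hx⟩ := h m
  · exact ⟨j, hj, (hp j x k).mp hx⟩
  · exact ⟨j, hj, (hp j x k).mpr hx⟩

theorem isPeriodic_symmDiff {n : ℕ} {A B : Set (Fin n → ℝ)} (hA : IsPeriodic A)
    (hB : IsPeriodic B) : IsPeriodic (symmDiff A B) := by
  intro x k
  rw [Set.mem_symmDiff, Set.mem_symmDiff, hA x k, hB x k]

theorem vol_mono {n : ℕ} {A B : Set (Fin n → ℝ)} (h : A ⊆ B) : vol A ≤ vol B := by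
  unfold vol
  apply ENNReal.toReal_mono
  · exact ((measure_mono inter_subset_right).trans_lt (by rw [volume_cube]; simp)).ne
  · exact measure_mono (inter_subset_inter_left _ h)

theorem volume_inter_cube_eq {n : ℕ} (A : Set (Fin n → ℝ)) :
    volume (A ∩ cube n) = ENNReal.ofReal (vol A) := by
  unfold vol
  rw [ENNReal.ofReal_toReal]
  exact ((measure_mono inter_subset_right).trans_lt (by rw [volume_cube]; simp)).ne

/-- completeness of the measure algebra, in the form needed -/
theorem exists_limit {n : ℕ} {E : ℕ → Set (Fin n → ℝ)} (hE : ∀ k, MeasurableSet (E k))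
    (hp : ∀ k, IsPeriodic (E k))
    (h : ∀ k, vol (symmDiff (E k) (E (k + 1))) ≤ (1 / 2) ^ k) :
    ∃ L, MeasurableSet L ∧ IsPeriodic L ∧
      Tendsto (fun k => vol (symmDiff (E k) L)) atTop (𝓝 0) := by
  refine ⟨⋂ m : ℕ, ⋃ k ≥ m, E k, ?_, isPeriodic_limsup hp, ?_⟩
  · exact MeasurableSet.iInter fun m => MeasurableSet.iUnion fun k => MeasurableSet.iUnion fun _ => hE k
  have hsub : ∀ k, symmDiff (E k) (⋂ m : ℕ, ⋃ j ≥ m, E j) ⊆
      ⋃ i : ℕ, symmDiff (E (k + i)) (E (k + i + 1)) := by
    intro k x hx
    by_contra hcon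
    simp only [mem_iUnion, not_exists] at hcon
    have hall : ∀ i, (x ∈ E (k + i) ↔ x ∈ E k) := by
      intro i
      induction i with
      | zero => rfl
      | succ i ih =>
        have := hcon i
        rw [Set.mem_symmDiff] at this
        rw [← ih, ← add_assoc]
        tauto
    rw [Set.mem_symmDiff] at hx
    have hiff : x ∈ (⋂ m : ℕ, ⋃ j ≥ m, E j) ↔ x ∈ E k := by
      simp only [mem_iInter, mem_iUnion]
      constructor
      · intro hx
        obtain ⟨j, hj, hxj⟩ := hx k
        obtain ⟨i, rfl⟩ := Nat.exists_eq_add_of_le hj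
        exact (hall i).mp hxj
      · intro hx m
        exact ⟨k + m, Nat.le_add_left m k, (hall m).mpr hx⟩
    tauto
  have hb : ∀ k, vol (symmDiff (E k) (⋂ m : ℕ, ⋃ j ≥ m, E j)) ≤ 2 * (1 / 2) ^ k := by
    intro k
    have hs : HasSum (fun i : ℕ => ((1 / 2 : ℝ)) ^ (k + i)) (2 * (1 / 2) ^ k) := by
      have := hasSum_geometric_two.mul_left ((1 / 2 : ℝ) ^ k)
      simp only [← pow_add] at this
      rwa [mul_comm] at this
    have h1 : volume (symmDiff (E k) (⋂ m : ℕ, ⋃ j ≥ m, E j) ∩ cube n) ≤
        ENNReal.ofReal (2 * (1 / 2) ^ k) := by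
      calc volume (symmDiff (E k) (⋂ m : ℕ, ⋃ j ≥ m, E j) ∩ cube n)
          ≤ volume (⋃ i : ℕ, (symmDiff (E (k + i)) (E (k + i + 1)) ∩ cube n)) := by
            rw [← iUnion_inter]
            exact measure_mono (inter_subset_inter_left _ (hsub k))
        _ ≤ ∑' i : ℕ, volume (symmDiff (E (k + i)) (E (k + i + 1)) ∩ cube n) :=
            measure_iUnion_le _
        _ ≤ ∑' i : ℕ, ENNReal.ofReal ((1 / 2) ^ (k + i)) := by
            apply ENNReal.tsum_le_tsum
            intro i
            rw [volume_inter_cube_eq]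
            exact ENNReal.ofReal_le_ofReal (h (k + i))
        _ = ENNReal.ofReal (2 * (1 / 2) ^ k) := by
            rw [← ENNReal.ofReal_tsum_of_nonneg (fun i => by positivity) hs.summable, hs.tsum_eq]
    unfold vol
    exact ENNReal.toReal_le_of_le_ofReal (by positivity) h1
  refine squeeze_zero (fun k => vol_nonneg _) hb ?_
  have := (tendsto_pow_atTop_nhds_zero_of_lt_one (r := (1/2:ℝ)) (by norm_num) (by norm_num)).const_mul 2
  simpa using this

/-- **Compactness of sets of bounded perimeter in the torus.** -/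
theorem compactness {n : ℕ} {E : ℕ → Set (Fin n → ℝ)} (hE : ∀ k, MeasurableSet (E k))
    (hp : ∀ k, IsPeriodic (E k)) {C : ℝ}
    (hC : ∀ k, perimeter (E k) ≤ ENNReal.ofReal C) :
    ∃ σ : ℕ → ℕ, StrictMono σ ∧ ∃ L, MeasurableSet L ∧ IsPeriodic L ∧
      Tendsto (fun k => vol (symmDiff (E (σ k)) L)) atTop (𝓝 0) := by
  obtain ⟨σ, hσ, hm⟩ := exists_subseq_moll hE
  have hC' : ∀ k X, TestField X → ∫ x in E (σ k) ∩ cube n, divergence X x ≤ max C 0 := by
    intro k X hX
    have hne : perimeter (E (σ k)) ≠ ⊤ := ((hC _).trans_lt ENNReal.ofReal_lt_top).ne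
    refine (integral_divergence_le_of_perimeter hne hX).trans ?_
    have := ENNReal.toReal_mono ENNReal.ofReal_ne_top (hC (σ k))
    rwa [ENNReal.toReal_ofReal'] at this
  have hcau : ∀ i : ℕ, ∀ᶠ N in atTop, ∀ k ≥ N, ∀ l ≥ N,
      vol (symmDiff (E (σ k)) (E (σ l))) < (1 / 2) ^ i := by
    intro i
    obtain ⟨N, hN⟩ := cauchy_of_moll (E := fun k => E (σ k)) (fun k => hE _) (fun k => hp _) hC' hm
      (show (0:ℝ) < (1 / 2) ^ i by positivity)
    filter_upwards [eventually_ge_atTop N] with M hM k hk l hl
    exact hN k (hM.trans hk) l (hM.trans hl)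
  obtain ⟨τ, hτ, hτ'⟩ := extraction_forall_of_eventually hcau
  refine ⟨σ ∘ τ, hσ.comp hτ, ?_⟩
  exact exists_limit (E := fun k => E (σ (τ k))) (fun k => hE _) (fun k => hp _)
    (fun k => (hτ' k (τ k) le_rfl (τ (k + 1)) (hτ (Nat.lt_succ_self k)).le).le)

/-- lower semicontinuity of the perimeter -/
theorem perimeter_le_of_tendsto {n : ℕ} {E : ℕ → Set (Fin n → ℝ)} {L : Set (Fin n → ℝ)}
    (hE : ∀ k, MeasurableSet (E k)) (hL : MeasurableSet L)
    (hlim : Tendsto (fun k => vol (symmDiff (E k) L)) atTop (𝓝 0)) {c : ℕ → ℝ} {c0 : ℝ}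
    (hc : ∀ k, perimeter (E k) ≤ ENNReal.ofReal (c k)) (hc0 : Tendsto c atTop (𝓝 c0)) :
    perimeter L ≤ ENNReal.ofReal c0 := by
  unfold perimeter
  apply iSup₂_le
  intro X hX
  obtain ⟨K, hK⟩ := exists_bound_divergence hX
  have hdiv := continuous_divergence hX.contDiff
  have hK0 : 0 ≤ K := (abs_nonneg _).trans (hK 0)
  have h1 : Tendsto (fun k => ∫ x in E k ∩ cube n, divergence X x) atTop
      (𝓝 (∫ x in L ∩ cube n, divergence X x)) := by
    rw [tendsto_iff_dist_tendsto_zero]
    refine squeeze_zero (fun k => dist_nonneg) (g := fun k => K * vol (symmDiff (E k) L)) ?_ ?_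
    · intro k
      rw [Real.dist_eq, setIntegral_inter_cube (hE k), setIntegral_inter_cube hL]
      have j1 : ∀ A : Set (Fin n → ℝ), MeasurableSet A →
          Integrable (fun x => ind A x * divergence X x) (volume.restrict (cube n)) := by
        intro A hA
        have := (integrableOn_cube hdiv).bdd_mul (c := 1)
          (measurable_indicator' hA).aestronglyMeasurable (by
            filter_upwards with x
            rw [Real.norm_eq_abs, abs_of_nonneg (indicator_nonneg' _ _)]
            exact indicator_le_one' _ _)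
        exact this
      rw [← integral_sub (j1 _ (hE k)) (j1 _ hL), vol_symmDiff_eq (hE k) hL, ← integral_const_mul]
      refine abs_integral_le_integral_abs.trans ?_
      apply integral_mono ((j1 _ (hE k)).sub (j1 _ hL)).abs
      · exact (((integrableOn_indicator (hE k)).sub (integrableOn_indicator hL)).abs).const_mul K
      · intro x
        simp only [Pi.sub_apply]
        rw [← sub_mul, abs_mul, mul_comm]
        exact mul_le_mul_of_nonneg_right (hK x) (abs_nonneg _)
    · simpa using hlim.const_mul K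
  have h2 := ENNReal.tendsto_ofReal h1
  have h3 := ENNReal.tendsto_ofReal hc0
  refine le_of_tendsto_of_tendsto' h2 h3 fun k => ?_
  exact le_trans (le_iSup₂_of_le X hX le_rfl) (hc k)

end Vale.Agent.P232.H109
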