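import Vale.Agent.P232.Bdl.B2
import Vale.Agent.P232.H109.Compact

open MeasureTheory Set Filter Topology ContinuousLinearMap
open scoped Pointwise Convolution

namespace Vale.Agent.P232.H109

open Vale.Agent.P232

theorem continuous_J : Continuous J := by
  unfold J
  have h1 : Continuous fun V : ℝ => (min V (1 - V)) ^ (2 / 3 : ℝ) :=
    Continuous.rpow_const (by fun_prop) (fun x => Or.inr (by norm_num))
  have h2 : Continuous fun V : ℝ => Real.sqrt (Real.pi * min V (1 - V)) := by fun_prop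
  exact (((continuous_const.mul h1).min (continuous_const.mul h2)).min continuous_const)

theorem vol_symmDiff_comm {n : ℕ} (A B : Set (Fin n → ℝ)) :
    vol (symmDiff A B) = vol (symmDiff B A) := by rw [symmDiff_comm]

theorem abs_vol_sub_le {n : ℕ} {A B : Set (Fin n → ℝ)} (hA : MeasurableSet A)
    (hB : MeasurableSet B) : |vol A - vol B| ≤ vol (symmDiff A B) := by
  rw [vol_symmDiff_eq hA hB, vol_eq_integral hA, vol_eq_integral hB,
    ← integral_sub (integrableOn_indicator hA) (integrableOn_indicator hB)]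
  exact abs_integral_le_integral_abs

theorem vol_symmDiff_le_add {n : ℕ} {A B : Set (Fin n → ℝ)} (hA : MeasurableSet A)
    (hB : MeasurableSet B) : vol (symmDiff A B) ≤ vol A + vol B := by
  rw [vol_symmDiff_eq hA hB, vol_eq_integral hA, vol_eq_integral hB,
    ← integral_add (integrableOn_indicator hA) (integrableOn_indicator hB)]
  apply integral_mono ((integrableOn_indicator hA).sub (integrableOn_indicator hB)).abs
    ((integrableOn_indicator hA).add (integrableOn_indicator hB))
  intro x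
  have a1 := indicator_nonneg' A x
  have a2 := indicator_nonneg' B x
  simp only [Pi.sub_apply, Pi.add_apply]
  rw [abs_le]
  constructor <;> linarith

/-- a model region of small volume -/
theorem exists_small_model {ε : ℝ} (hε : 0 < ε) :
    ∃ v B, 0 < v ∧ v ≤ 1 / 2 ∧ v ≤ ε ∧ Model v B := by
  have hpi := Real.pi_gt_three
  have hpi4 := Real.pi_le_four
  refine ⟨min (min ε (1 / 2)) (4 * Real.pi / 81), ?_⟩
  set v := min (min ε (1 / 2)) (4 * Real.pi / 81) with hv
  have hv0 : 0 < v := by rw [hv]; positivity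
  refine ⟨ballSet 0 ((v / (4 / 3 * Real.pi)) ^ (1 / 3 : ℝ)), hv0,
    (min_le_left _ _).trans (min_le_right _ _), (min_le_left _ _).trans (min_le_left _ _), ?_⟩
  left
  refine ⟨min_le_right _ _, 0, _, by positivity, ?_, rfl⟩
  rw [← Real.rpow_natCast, ← Real.rpow_mul (by positivity)]
  norm_num
  field_simp

theorem symmDiff_compl_right' {α : Type*} (A B : Set α) :
    symmDiff A Bᶜ = symmDiff Aᶜ B := by
  ext x
  simp only [Set.mem_symmDiff, Set.mem_compl_iff]
  tauto

theorem stability : ∀ ε : ℝ, 0 < ε → ∃ δ : ℝ, 0 < δ ∧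
    ∀ E : Set (Fin 3 → ℝ), MeasurableSet E → IsPeriodic E →
      perimeter E ≤ ENNReal.ofReal (J (vol E) + δ) →
      ∃ v B, 0 < v ∧ v ≤ 1 / 2 ∧ Model v B ∧
        (vol (symmDiff E B) ≤ ε ∨ vol (symmDiff E Bᶜ) ≤ ε) := by
  obtain ⟨hprof, hclass, hmodel⟩ := classification_of_mid midStatement_holds
  intro ε hε
  by_contra hcon
  push Not at hcon
  have hk : ∀ k : ℕ, ∃ E : Set (Fin 3 → ℝ), MeasurableSet E ∧ IsPeriodic E ∧
      perimeter E ≤ ENNReal.ofReal (J (vol E) + 1 / ((k : ℝ) + 1)) ∧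
      ∀ v B, 0 < v → v ≤ 1 / 2 → Model v B →
        (ε < vol (symmDiff E B) ∧ ε < vol (symmDiff E Bᶜ)) := by
    intro k
    obtain ⟨E, h1, h2, h3, h4⟩ := hcon (1 / ((k : ℝ) + 1)) (by positivity)
    exact ⟨E, h1, h2, h3, h4⟩
  choose E hE hp hper hfar using hk
  have hJ2 : ∀ V, J V ≤ 2 := fun V => min_le_right _ _
  have hC : ∀ k, perimeter (E k) ≤ ENNReal.ofReal 3 := by
    intro k
    refine (hper k).trans (ENNReal.ofReal_le_ofReal ?_)
    have h1 : 1 / ((k : ℝ) + 1) ≤ 1 := by
      rw [div_le_one (by positivity)]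
      have : (0:ℝ) ≤ k := Nat.cast_nonneg k
      linarith
    linarith [hJ2 (vol (E k))]
  obtain ⟨σ, hσ, L, hL, hLp, hlim⟩ := compactness hE hp hC
  have hvol : Tendsto (fun k => vol (E (σ k))) atTop (𝓝 (vol L)) := by
    rw [tendsto_iff_dist_tendsto_zero]
    refine squeeze_zero (fun k => dist_nonneg) (fun k => ?_) hlim
    rw [Real.dist_eq]
    exact abs_vol_sub_le (hE _) hL
  have hcl : Tendsto (fun k => J (vol (E (σ k))) + 1 / ((σ k : ℝ) + 1)) atTop
      (𝓝 (J (vol L))) := by
    have h1 : Tendsto (fun k => 1 / ((σ k : ℝ) + 1)) atTop (𝓝 0) :=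
      tendsto_one_div_add_atTop_nhds_zero_nat.comp hσ.tendsto_atTop
    have h2 := ((continuous_J.tendsto _).comp hvol).add h1
    simpa using h2
  have hPL : perimeter L ≤ ENNReal.ofReal (J (vol L)) :=
    perimeter_le_of_tendsto (E := fun k => E (σ k)) (fun k => hE _) hL hlim
      (fun k => hper (σ k)) hcl
  -- eventually close
  have hev : ∀ η : ℝ, 0 < η → ∃ k, vol (symmDiff (E (σ k)) L) < η := fun η hη =>
    ((tendsto_order.mp hlim).2 η hη).exists
  rcases (vol_nonneg L).eq_or_lt with h0 | h0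
  · -- volume zero
    obtain ⟨v, B, hv0, hv1, hvε, hB⟩ := exists_small_model (show 0 < ε / 2 by positivity)
    obtain ⟨hBm, -, hBv, -⟩ := hmodel v B hv0 hv1 hB
    obtain ⟨k, hk⟩ := ((tendsto_order.mp hvol).2 (ε / 2) (by rw [← h0]; positivity)).exists
    have := (hfar (σ k) v B hv0 hv1 hB).1
    have h3 := vol_symmDiff_le_add (hE (σ k)) hBm
    linarith
  rcases (vol_le_one L).eq_or_lt with h1 | h1
  · obtain ⟨v, B, hv0, hv1, hvε, hB⟩ := exists_small_model (show 0 < ε / 2 by positivity)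
    obtain ⟨hBm, -, hBv, -⟩ := hmodel v B hv0 hv1 hB
    obtain ⟨k, hk⟩ := ((tendsto_order.mp hvol).1 (1 - ε / 2) (by rw [h1]; linarith)).exists
    have := (hfar (σ k) v B hv0 hv1 hB).2
    rw [symmDiff_compl_right'] at this
    have h3 := vol_symmDiff_le_add (hE (σ k)).compl hBm
    rw [vol_compl (hE (σ k))] at h3
    linarith
  have hmin : perimeter L = profile 3 (vol L) := by
    apply le_antisymm
    · rw [hprof _ h0 h1]; exact hPL
    · unfold profile
      exact iInf_le_of_le L (iInf_le_of_le hL (iInf_le_of_le hLp (iInf_le_of_le rfl le_rfl)))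
  obtain ⟨k, hk⟩ := hev ε hε
  rcases (hclass L hL hLp h0 h1).mp hmin with ⟨hle, B, hB, hae⟩ | ⟨hge, B, hB, hae⟩
  · have := (hfar (σ k) _ B h0 hle hB).1
    have e : vol (symmDiff (E (σ k)) B) = vol (symmDiff (E (σ k)) L) := by
      apply vol_congr
      filter_upwards [hae] with x hx
      simp only [eq_iff_iff] at hx ⊢
      change (x ∈ symmDiff (E (σ k)) B) ↔ (x ∈ symmDiff (E (σ k)) L)
      rw [Set.mem_symmDiff, Set.mem_symmDiff]
      have hx' : x ∈ L ↔ x ∈ B := hx
      rw [hx']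
    linarith
  · have := (hfar (σ k) _ B (by linarith) (by linarith) hB).2
    have e : vol (symmDiff (E (σ k)) Bᶜ) = vol (symmDiff (E (σ k)) L) := by
      apply vol_congr
      filter_upwards [hae] with x hx
      simp only [eq_iff_iff] at hx ⊢
      change (x ∈ symmDiff (E (σ k)) Bᶜ) ↔ (x ∈ symmDiff (E (σ k)) L)
      rw [Set.mem_symmDiff, Set.mem_symmDiff]
      have hx' : x ∈ L ↔ x ∈ Bᶜ := hx
      rw [hx']
    linarith

end Vale.Agent.P232.H109
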