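import Vale.Agent.P232.H109.TorusDefs
import Vale.Agent.P232.H109.Stab

open MeasureTheory Set Filter Topology

namespace Vale.Agent.P232.H109.Torus

/-- the projection -/
def pr (x : Fin 3 → ℝ) : T := fun i => (x i : UnitAddCircle)

theorem continuous_pr : Continuous pr :=
  continuous_pi fun i => (AddCircle.continuous_mk' 1).comp (continuous_apply i)

theorem measurable_pr : Measurable pr := continuous_pr.measurable

theorem pr_add_int (x : Fin 3 → ℝ) (k : Fin 3 → ℤ) : pr (fun i => x i + (k i : ℝ)) = pr x := by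
  funext i
  simp only [pr]
  rw [AddCircle.coe_add]
  have : ((k i : ℝ) : UnitAddCircle) = 0 := (AddCircle.coe_eq_zero_iff 1).mpr ⟨k i, by simp⟩
  rw [this, add_zero]

/-- a measurable section -/
noncomputable def sec (p : T) : Fin 3 → ℝ := fun i => (AddCircle.equivIoc 1 0 (p i)).1

theorem measurable_sec : Measurable sec :=
  measurable_pi_lambda _ fun i =>
    measurable_subtype_coe.comp
      ((AddCircle.measurableEquivIoc 1 0).measurable.comp (measurable_pi_apply i))

theorem pr_sec (p : T) : pr (sec p) = p := by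
  funext i
  exact AddCircle.coe_equivIoc

theorem exists_int (x : Fin 3 → ℝ) : ∃ k : Fin 3 → ℤ, sec (pr x) = fun i => x i + (k i : ℝ) := by
  have h : ∀ i, ∃ k : ℤ, sec (pr x) i = x i + (k : ℝ) := by
    intro i
    have h1 := congrFun (pr_sec (pr x)) i
    have h2 : ((sec (pr x) i - x i : ℝ) : UnitAddCircle) = 0 := by
      rw [AddCircle.coe_sub]
      exact sub_eq_zero.mpr h1
    obtain ⟨k, hk⟩ := (AddCircle.coe_eq_zero_iff 1).mp h2
    refine ⟨k, ?_⟩
    rw [zsmul_one] at hk
    linarith
  choose k hk using h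
  exact ⟨k, funext hk⟩

theorem isPeriodic_pre (E : Set T) : IsPeriodic (pr ⁻¹' E) := by
  intro x k
  rw [mem_preimage, mem_preimage, pr_add_int]

/-- the set of the torus given by a periodic set -/
def push (E' : Set (Fin 3 → ℝ)) : Set T := sec ⁻¹' E'

theorem pre_push {E' : Set (Fin 3 → ℝ)} (hp : IsPeriodic E') : pr ⁻¹' (push E') = E' := by
  ext x
  obtain ⟨k, hk⟩ := exists_int x
  rw [mem_preimage, push, mem_preimage, hk]
  exact hp x k

theorem measurableSet_push {E' : Set (Fin 3 → ℝ)} (h : MeasurableSet E') :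
    MeasurableSet (push E') := measurable_sec h

theorem push_pre (E : Set T) : push (pr ⁻¹' E) = E := by
  ext p
  rw [push, mem_preimage, mem_preimage, pr_sec]

theorem cube_ae : cube 3 =ᵐ[volume] Set.pi univ (fun _ : Fin 3 => Ioc (0:ℝ) (0 + 1)) := by
  rw [cube_eq_pi]
  simp only [zero_add]
  have h1 := Measure.univ_pi_Ico_ae_eq_Icc (μ := fun _ : Fin 3 => (volume : Measure ℝ))
    (f := 0) (g := 1)
  have h2 := Measure.univ_pi_Ioc_ae_eq_Icc (μ := fun _ : Fin 3 => (volume : Measure ℝ))
    (f := 0) (g := 1)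
  exact h1.trans h2.symm

theorem measurePreserving_pr : MeasurePreserving pr (volume.restrict (cube 3)) volume := by
  have h := measurePreserving_pi (fun _ : Fin 3 => (volume : Measure ℝ).restrict (Ioc (0:ℝ) (0 + 1)))
    (fun _ : Fin 3 => (volume : Measure UnitAddCircle))
    (fun i => AddCircle.measurePreserving_mk 1 0)
  rw [Measure.restrict_congr_set cube_ae, volume_pi, volume_pi, Measure.restrict_pi_pi]
  exact h

theorem volume_eq {E : Set T} (hE : MeasurableSet E) :
    volume E = volume (pr ⁻¹' E ∩ cube 3) := by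
  rw [← measurePreserving_pr.measure_preimage hE.nullMeasurableSet,
    Measure.restrict_apply (measurable_pr hE)]

theorem real_eq {E : Set T} (hE : MeasurableSet E) : volume.real E = vol (pr ⁻¹' E) := by
  rw [Measure.real, volume_eq hE]
  rfl

theorem ae_eq_iff {E B : Set T} (hE : MeasurableSet E) (hB : MeasurableSet B) :
    E =ᵐ[volume] B ↔ (pr ⁻¹' E : Set (Fin 3 → ℝ)) =ᵐ[volume] pr ⁻¹' B := by
  constructor
  · intro h
    apply ae_eq_of_ae_cube (isPeriodic_pre E) (isPeriodic_pre B)
    exact measurePreserving_pr.quasiMeasurePreserving.preimage_ae_eq h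
  · intro h
    rw [← measure_symmDiff_eq_zero_iff] at h ⊢
    rw [volume_eq (hE.symmDiff hB), preimage_symmDiff]
    exact measure_mono_null inter_subset_left h

/-- the periodic lift of a field -/
def lift (X : T → EuclideanSpace ℝ (Fin 3)) : (Fin 3 → ℝ) → (Fin 3 → ℝ) :=
  fun x i => X (pr x) i

theorem contDiff_lift {X : T → EuclideanSpace ℝ (Fin 3)} (hX : IsField X) :
    ContDiff ℝ 1 (lift X) := by
  rw [contDiff_pi]
  intro i
  have h1 : ContDiff ℝ 1 (fun x : Fin 3 → ℝ => X (pr x)) := hX.1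
  exact (contDiff_euclidean.mp h1) i

theorem testField_lift {X : T → EuclideanSpace ℝ (Fin 3)} (hX : IsField X) :
    TestField (lift X) where
  contDiff := contDiff_lift hX
  periodic := fun x k => by
    funext i
    simp only [lift, pr_add_int]
  bound := fun x => by
    have := hX.2 (pr x)
    rw [EuclideanSpace.norm_eq] at this
    have h2 := (Real.sqrt_le_one).mp this
    simpa [lift] using h2

theorem pr_add_single (x : Fin 3 → ℝ) (i : Fin 3) (t : ℝ) :
    pr x + Pi.single i (t : UnitAddCircle) = pr (x + t • Pi.single i 1) := by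
  funext j
  simp only [pr, Pi.add_apply, Pi.smul_apply, smul_eq_mul]
  rw [AddCircle.coe_add]
  congr 1
  by_cases h : j = i
  · subst h
    simp
  · simp [Pi.single_eq_of_ne h]

theorem div_eq {X : T → EuclideanSpace ℝ (Fin 3)} (hX : IsField X) (x : Fin 3 → ℝ) :
    div X (pr x) = divergence (lift X) x := by
  unfold div divergence
  refine Finset.sum_congr rfl fun i _ => ?_
  have h1 : HasFDerivAt (lift X) (fderiv ℝ (lift X) x) x :=
    ((contDiff_lift hX).differentiable one_ne_zero x).hasFDerivAt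
  have h2 : HasDerivAt (fun t : ℝ => x + t • (Pi.single i 1 : Fin 3 → ℝ)) (Pi.single i 1) 0 := by
    have := ((hasDerivAt_id (0:ℝ)).smul_const (Pi.single i 1 : Fin 3 → ℝ)).const_add x
    simpa using this
  have h1' : HasFDerivAt (lift X) (fderiv ℝ (lift X) x) (x + (0:ℝ) • (Pi.single i 1 : Fin 3 → ℝ)) := by
    simpa using h1
  have h3 := h1'.comp_hasDerivAt (0:ℝ) h2
  have h4 := (hasDerivAt_pi.mp h3) i
  have e : (fun t : ℝ => X (pr x + Pi.single i (t : UnitAddCircle)) i) =
      fun t : ℝ => (lift X ∘ fun t : ℝ => x + t • (Pi.single i 1 : Fin 3 → ℝ)) t i := by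
    funext t
    simp only [Function.comp, lift, pr_add_single]
  rw [e]
  exact h4.deriv

theorem setIntegral_eq {E : Set T} (hE : MeasurableSet E) {X : T → EuclideanSpace ℝ (Fin 3)}
    (hX : IsField X) : ∫ p in E, div X p = ∫ x in pr ⁻¹' E ∩ cube 3, divergence (lift X) x := by
  have hm : Measurable (div X) := by
    have : div X = fun p => divergence (lift X) (sec p) := by
      funext p
      rw [← div_eq hX, pr_sec]
    rw [this]
    exact (continuous_divergence (contDiff_lift hX)).measurable.comp measurable_sec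
  rw [← measurePreserving_pr.map_eq, Measure.restrict_map measurable_pr hE,
    integral_map measurable_pr.aemeasurable hm.aestronglyMeasurable,
    Measure.restrict_restrict (measurable_pr hE)]
  congr 1
  funext x
  exact div_eq hX x

theorem perimeter_eq {E : Set T} (hE : MeasurableSet E) :
    perimeter E = Vale.Agent.P232.perimeter (pr ⁻¹' E) := by
  unfold perimeter Vale.Agent.P232.perimeter
  apply le_antisymm
  · apply iSup₂_le
    intro X hX
    rw [setIntegral_eq hE hX]
    exact le_iSup₂_of_le (lift X) (testField_lift hX) le_rfl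
  · apply iSup₂_le
    intro Y hY
    set X : T → EuclideanSpace ℝ (Fin 3) := fun p => WithLp.toLp 2 (Y (sec p)) with hXdef
    have hlift : ∀ x, Y (sec (pr x)) = Y x := by
      intro x
      obtain ⟨k, hk⟩ := exists_int x
      rw [hk]
      exact hY.periodic x k
    have hX : IsField X := by
      constructor
      · have e : (fun x : Fin 3 → ℝ => X (fun i => (x i : UnitAddCircle))) =
            fun x => WithLp.toLp 2 (Y x) := by
          funext x
          change WithLp.toLp 2 (Y (sec (pr x))) = _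
          rw [hlift]
        rw [e, contDiff_euclidean]
        intro i
        exact (contDiff_pi.mp hY.contDiff) i
      · intro p
        rw [EuclideanSpace.norm_eq]
        apply Real.sqrt_le_one.mpr
        have := hY.bound (sec p)
        simpa [hXdef] using this
    have hlX : lift X = Y := by
      funext x i
      simp only [lift, hXdef]
      rw [hlift]
    refine le_iSup₂_of_le X hX ?_
    rw [setIntegral_eq hE hX, hlX]

theorem profile_eq (V : ℝ) : profile V = Vale.Agent.P232.profile 3 V := by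
  unfold profile Vale.Agent.P232.profile
  apply le_antisymm
  · refine le_iInf fun E' => le_iInf fun hE' => le_iInf fun hp => le_iInf fun hv => ?_
    refine iInf_le_of_le (push E') (iInf_le_of_le (measurableSet_push hE') (iInf_le_of_le ?_ ?_))
    · rw [real_eq (measurableSet_push hE'), pre_push hp, hv]
    · rw [perimeter_eq (measurableSet_push hE'), pre_push hp]
  · refine le_iInf fun E => le_iInf fun hE => le_iInf fun hv => ?_
    refine iInf_le_of_le (pr ⁻¹' E) (iInf_le_of_le (measurable_pr hE)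
      (iInf_le_of_le (isPeriodic_pre E) (iInf_le_of_le ?_ ?_)))
    · rw [← real_eq hE, hv]
    · rw [perimeter_eq hE]

theorem J_eq (V : ℝ) : J V = Vale.Agent.P232.J V := rfl

theorem norm_sq_lt_iff (s : Finset (Fin 3)) (x c : Fin 3 → ℝ) (r : ℝ) :
    (∑ j ∈ s, ‖pr x j - pr c j‖ ^ 2 < r ^ 2) ↔
      ∃ k : Fin 3 → ℤ, ∑ j ∈ s, (x j - c j - k j) ^ 2 < r ^ 2 := by
  have e : ∀ j, ‖pr x j - pr c j‖ = |(x j - c j) - round (x j - c j)| := by
    intro j
    simp only [pr]
    rw [← AddCircle.coe_sub, UnitAddCircle.norm_eq]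
  constructor
  · intro h
    refine ⟨fun j => round (x j - c j), ?_⟩
    refine lt_of_le_of_lt (le_of_eq ?_) h
    refine Finset.sum_congr rfl fun j _ => ?_
    rw [e, sq_abs]
  · rintro ⟨k, hk⟩
    refine lt_of_le_of_lt (Finset.sum_le_sum fun j _ => ?_) hk
    rw [e, sq_le_sq, abs_abs]
    exact round_le _ _

theorem pre_ball (c : Fin 3 → ℝ) (r : ℝ) : pr ⁻¹' (ball (pr c) r) = ballSet c r := by
  ext x
  exact norm_sq_lt_iff Finset.univ x c r

theorem pre_tube (i : Fin 3) (c : Fin 3 → ℝ) (r : ℝ) :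
    pr ⁻¹' (tube i (pr c) r) = tubeSet i c r := by
  ext x
  exact norm_sq_lt_iff (Finset.univ.erase i) x c r

theorem pre_slab (i : Fin 3) (a w : ℝ) : pr ⁻¹' (slab i a w) = slabSet i a w := by
  ext x
  simp only [slab, slabSet, mem_preimage, mem_ofPred_eq, pr]
  constructor
  · rintro ⟨t, h1, h2, h3⟩
    have h4 : ((x i - t : ℝ) : UnitAddCircle) = 0 := by
      rw [AddCircle.coe_sub]
      exact sub_eq_zero.mpr h3
    obtain ⟨k, hk⟩ := (AddCircle.coe_eq_zero_iff 1).mp h4
    rw [zsmul_one] at hk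
    refine ⟨k, ?_, ?_⟩ <;> linarith
  · rintro ⟨k, h1, h2⟩
    refine ⟨x i - k, h1, h2, ?_⟩
    have : ((k : ℝ) : UnitAddCircle) = 0 := (AddCircle.coe_eq_zero_iff 1).mpr ⟨k, by simp⟩
    rw [AddCircle.coe_sub, this, sub_zero]

theorem model_pre {v : ℝ} {B : Set T} (h : Model v B) : Vale.Agent.P232.Model v (pr ⁻¹' B) := by
  rcases h with ⟨h1, c, r, h2, h3, rfl⟩ | ⟨h1, h1', i, c, r, h2, h3, rfl⟩ | ⟨h1, i, a, rfl⟩
  · left
    refine ⟨h1, sec c, r, h2, h3, ?_⟩
    rw [← pre_ball, pr_sec]
  · right; left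
    refine ⟨h1, h1', i, sec c, r, h2, h3, ?_⟩
    rw [← pre_tube, pr_sec]
  · right; right
    exact ⟨h1, i, a, pre_slab i a v⟩

theorem exists_model {v : ℝ} {B' : Set (Fin 3 → ℝ)} (h : Vale.Agent.P232.Model v B') :
    ∃ B, Model v B ∧ pr ⁻¹' B = B' := by
  rcases h with ⟨h1, c, r, h2, h3, rfl⟩ | ⟨h1, h1', i, c, r, h2, h3, rfl⟩ | ⟨h1, i, a, rfl⟩
  · exact ⟨ball (pr c) r, Or.inl ⟨h1, _, r, h2, h3, rfl⟩, pre_ball c r⟩
  · exact ⟨tube i (pr c) r, Or.inr (Or.inl ⟨h1, h1', i, _, r, h2, h3, rfl⟩), pre_tube i c r⟩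
  · exact ⟨slab i a v, Or.inr (Or.inr ⟨h1, i, a, rfl⟩), pre_slab i a v⟩

/-- measurability of a set of the torus can be read off upstairs -/
theorem measurableSet_of_pre {B : Set T} (h : MeasurableSet (pr ⁻¹' B)) : MeasurableSet B := by
  rw [← push_pre B]
  exact measurableSet_push h

theorem torus_profile {V : ℝ} (h0 : 0 < V) (h1 : V < 1) : profile V = ENNReal.ofReal (J V) := by
  rw [profile_eq, J_eq]
  exact (classification_of_mid midStatement_holds).1 V h0 h1

theorem torus_model {v : ℝ} {B : Set T} (h0 : 0 < v) (h1 : v ≤ 1 / 2) (hB : Model v B) :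
    MeasurableSet B ∧ volume.real B = v ∧ perimeter B = ENNReal.ofReal (J v) := by
  obtain ⟨a1, -, a3, a4⟩ := (classification_of_mid midStatement_holds).2.2 v _ h0 h1 (model_pre hB)
  have hm := measurableSet_of_pre a1
  exact ⟨hm, by rw [real_eq hm, a3], by rw [perimeter_eq hm, J_eq, a4]⟩

theorem torus_iff {E : Set T} (hE : MeasurableSet E) (h0 : 0 < volume.real E)
    (h1 : volume.real E < 1) :
    perimeter E = profile (volume.real E) ↔
      (volume.real E ≤ 1 / 2 ∧ ∃ B, Model (volume.real E) B ∧ E =ᵐ[volume] B) ∨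
      (1 / 2 ≤ volume.real E ∧ ∃ B, Model (1 - volume.real E) B ∧ E =ᵐ[volume] (Bᶜ : Set T)) := by
  have hv := real_eq hE
  rw [perimeter_eq hE, profile_eq, hv]
  rw [hv] at h0 h1
  rw [(classification_of_mid midStatement_holds).2.1 _ (measurable_pr hE) (isPeriodic_pre E) h0 h1]
  constructor
  · rintro (⟨h2, B', hB', h3⟩ | ⟨h2, B', hB', h3⟩)
    · left
      obtain ⟨B, hB, rfl⟩ := exists_model hB'
      exact ⟨h2, B, hB, (ae_eq_iff hE (torus_model h0 h2 hB).1).mpr h3⟩
    · right
      obtain ⟨B, hB, rfl⟩ := exists_model hB'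
      refine ⟨h2, B, hB, (ae_eq_iff hE (torus_model (by linarith) (by linarith) hB).1.compl).mpr ?_⟩
      rw [preimage_compl]
      exact h3
  · rintro (⟨h2, B, hB, h3⟩ | ⟨h2, B, hB, h3⟩)
    · left
      exact ⟨h2, _, model_pre hB, (ae_eq_iff hE (torus_model h0 h2 hB).1).mp h3⟩
    · right
      refine ⟨h2, _, model_pre hB, ?_⟩
      rw [← preimage_compl]
      exact (ae_eq_iff hE (torus_model (by linarith) (by linarith) hB).1.compl).mp h3

theorem torus_stability {ε : ℝ} (hε : 0 < ε) : ∃ δ : ℝ, 0 < δ ∧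
    ∀ E : Set T, MeasurableSet E → perimeter E ≤ ENNReal.ofReal (J (volume.real E) + δ) →
      ∃ v B, 0 < v ∧ v ≤ 1 / 2 ∧ Model v B ∧
        (volume.real (symmDiff E B) ≤ ε ∨ volume.real (symmDiff E Bᶜ) ≤ ε) := by
  obtain ⟨δ, hδ, h⟩ := stability ε hε
  refine ⟨δ, hδ, fun E hE hper => ?_⟩
  rw [perimeter_eq hE, real_eq hE] at hper
  obtain ⟨v, B', hv0, hv1, hB', h2⟩ := h _ (measurable_pr hE) (isPeriodic_pre E) hper
  obtain ⟨B, hB, rfl⟩ := exists_model hB'
  have hBm := (torus_model hv0 hv1 hB).1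
  refine ⟨v, B, hv0, hv1, hB, ?_⟩
  rw [real_eq (hE.symmDiff hBm), real_eq (hE.symmDiff hBm.compl), preimage_symmDiff,
    preimage_symmDiff, preimage_compl]
  exact h2

end Vale.Agent.P232.H109.Torus
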