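import Mathlib.Topology.Instances.AddCircle.Real
import Mathlib.MeasureTheory.Integral.IntervalIntegral.Periodic
import Mathlib.Analysis.Normed.Group.AddCircle
import Mathlib.MeasureTheory.Constructions.Pi
import Mathlib.MeasureTheory.Measure.Haar.OfBasis
import Mathlib.Analysis.Calculus.ContDiff.Basic
import Mathlib.Analysis.InnerProductSpace.PiL2

open MeasureTheory Set

/-! The isoperimetric problem on Mathlib's torus `UnitAddTorus (Fin 3) = (ℝ/ℤ)³`, with its Haar
probability measure `volume`. -/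

namespace Vale.Agent.P232.H109.Torus

/-- The cubic flat three-torus. -/
abbrev T : Type := UnitAddTorus (Fin 3)

/-- `X` is a `C¹` vector field on `T` of Euclidean length at most one. -/
def IsField (X : T → EuclideanSpace ℝ (Fin 3)) : Prop :=
  ContDiff ℝ 1 (fun x : Fin 3 → ℝ => X (fun i => (x i : UnitAddCircle))) ∧ ∀ p, ‖X p‖ ≤ 1

/-- The divergence of a vector field on `T`. -/
noncomputable def div (X : T → EuclideanSpace ℝ (Fin 3)) (p : T) : ℝ :=
  ∑ i, deriv (fun t : ℝ => X (p + Pi.single i (t : UnitAddCircle)) i) 0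

/-- De Giorgi's perimeter of a subset of `T`. -/
noncomputable def perimeter (E : Set T) : ENNReal :=
  ⨆ (X : T → EuclideanSpace ℝ (Fin 3)) (_ : IsField X), ENNReal.ofReal (∫ p in E, div X p)

/-- The isoperimetric profile of `T`. -/
noncomputable def profile (V : ℝ) : ENNReal :=
  ⨅ (E : Set T) (_ : MeasurableSet E) (_ : volume.real E = V), perimeter E

/-- The conjectured profile. -/
noncomputable def J (V : ℝ) : ℝ :=
  min (min ((36 * Real.pi) ^ (1 / 3 : ℝ) * (min V (1 - V)) ^ (2 / 3 : ℝ))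
    (2 * Real.sqrt (Real.pi * min V (1 - V)))) 2

/-- The geodesic ball of centre `c` and radius `r`: on the circle `ℝ/ℤ` the norm is the distance
to the nearest integer. -/
def ball (c : T) (r : ℝ) : Set T := {p | ∑ j, ‖p j - c j‖ ^ 2 < r ^ 2}

/-- The tube of radius `r` about the closed geodesic of length one through `c` in direction
`i`. -/
def tube (i : Fin 3) (c : T) (r : ℝ) : Set T :=
  {p | ∑ j ∈ Finset.univ.erase i, ‖p j - c j‖ ^ 2 < r ^ 2}

/-- The slab of width `w` between two parallel coordinate tori. -/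
def slab (i : Fin 3) (a w : ℝ) : Set T := {p | ∃ t : ℝ, a < t ∧ t < a + w ∧ p i = t}

/-- The model regions of volume `v ≤ 1/2`: balls for `v ≤ 4π/81`, tubes about a shortest closed
geodesic for `4π/81 ≤ v ≤ 1/π`, slabs for `1/π ≤ v`. -/
def Model (v : ℝ) (B : Set T) : Prop :=
  (v ≤ 4 * Real.pi / 81 ∧ ∃ c r, 0 < r ∧ 4 / 3 * Real.pi * r ^ 3 = v ∧ B = ball c r) ∨
  (4 * Real.pi / 81 ≤ v ∧ v ≤ 1 / Real.pi ∧
    ∃ i c r, 0 < r ∧ Real.pi * r ^ 2 = v ∧ B = tube i c r) ∨
  (1 / Real.pi ≤ v ∧ ∃ i a, B = slab i a v)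

end Vale.Agent.P232.H109.Torus
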