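import Vale.Agent.P232.Bdl.B1

open MeasureTheory Set Filter Topology ContinuousLinearMap
open scoped Pointwise Convolution

namespace Vale.Agent.P232.H109

open Vale.Agent.P232

/-- indicator function -/
noncomputable abbrev ind {n : ℕ} (E : Set (Fin n → ℝ)) : (Fin n → ℝ) → ℝ :=
  E.indicator (fun _ => (1 : ℝ))

theorem gradNorm_dir {n : ℕ} {f : (Fin n → ℝ) → ℝ} (x h : Fin n → ℝ) :
    |fderiv ℝ f x h| ≤ Real.sqrt (∑ i, h i ^ 2) * gradNorm f x := by
  have e : fderiv ℝ f x h = ∑ i, h i * fderiv ℝ f x (Pi.single i 1) := by
    conv_lhs => rw [pi_eq_sum_univ' h]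
    rw [map_sum]
    refine Finset.sum_congr rfl fun i _ => ?_
    rw [map_smul, smul_eq_mul]
  rw [e]
  exact abs_sum_mul_le _ _

/-- Translation bound for `C¹` functions. -/
theorem integral_translate_le {n : ℕ} {f : (Fin n → ℝ) → ℝ} (hf : ContDiff ℝ 1 f)
    (hp : PerFun f) (h : Fin n → ℝ) :
    ∫ x in cube n, |f (x + h) - f x| ≤
      Real.sqrt (∑ i, h i ^ 2) * ∫ x in cube n, gradNorm f x := by
  set L := Real.sqrt (∑ i, h i ^ 2) with hL
  have hL0 : 0 ≤ L := Real.sqrt_nonneg _
  have hg := continuous_gradNorm hf
  have hfd := hf.continuous_fderiv one_ne_zero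
  have h1 : ∀ x, |f (x + h) - f x| ≤ ∫ t in (0:ℝ)..1, L * gradNorm f (x + t • h) := by
    intro x
    have e1 : f (x + h) - f x = ∫ t in (0:ℝ)..1, fderiv ℝ f (x + t • h) h := by
      have hd : ∀ t ∈ uIcc (0:ℝ) 1, HasDerivAt (fun t : ℝ => f (x + t • h))
          (fderiv ℝ f (x + t • h) h) t := by
        intro t _
        have h2 : HasDerivAt (fun t : ℝ => x + t • h) h t := by
          have := ((hasDerivAt_id t).smul_const h).const_add x
          simpa using this
        exact ((hf.differentiable one_ne_zero _).hasFDerivAt).comp_hasDerivAt t h2
      rw [intervalIntegral.integral_eq_sub_of_hasDerivAt hd]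
      · simp
      · apply Continuous.intervalIntegrable
        fun_prop
    rw [e1]
    refine (intervalIntegral.abs_integral_le_integral_abs zero_le_one).trans ?_
    apply intervalIntegral.integral_mono_on zero_le_one
    · apply Continuous.intervalIntegrable
      fun_prop
    · apply Continuous.intervalIntegrable
      fun_prop
    · intro t _
      exact gradNorm_dir _ _
  have h2 : ∀ x, ∫ t in (0:ℝ)..1, L * gradNorm f (x + t • h) =
      ∫ t in Icc (0:ℝ) 1, L * gradNorm f (x + t • h) := by
    intro x
    rw [intervalIntegral.integral_of_le zero_le_one, integral_Icc_eq_integral_Ioc]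
  have hint : Integrable (Function.uncurry fun (x : Fin n → ℝ) (t : ℝ) =>
      L * gradNorm f (x + t • h))
      ((volume.restrict (cube n)).prod (volume.restrict (Icc (0:ℝ) 1))) := by
    have hc : Continuous (Function.uncurry fun (x : Fin n → ℝ) (t : ℝ) =>
      L * gradNorm f (x + t • h)) := by
      have e : (Function.uncurry fun (x : Fin n → ℝ) (t : ℝ) => L * gradNorm f (x + t • h)) =
          fun p => L * gradNorm f (p.1 + p.2 • h) := rfl
      rw [e]
      fun_prop
    rw [Measure.prod_restrict]
    have := hc.continuousOn.integrableOn_compact (μ := volume.prod volume)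
      ((isCompact_Icc (a := (0 : Fin n → ℝ)) (b := 1)).prod (isCompact_Icc (a := (0:ℝ)) (b := 1)))
    refine this.mono_set ?_
    rintro ⟨x, t⟩ ⟨hx, ht⟩
    refine ⟨⟨fun i => (hx i).1, fun i => (hx i).2.le⟩, ht⟩
  calc ∫ x in cube n, |f (x + h) - f x|
      ≤ ∫ x in cube n, ∫ t in Icc (0:ℝ) 1, L * gradNorm f (x + t • h) := by
        apply integral_mono
        · have := hf.continuous
          exact integrableOn_cube (by fun_prop)
        · exact hint.integral_prod_left
        · intro x
          have := h1 x
          rw [h2] at this
          exact this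
    _ = ∫ t in Icc (0:ℝ) 1, ∫ x in cube n, L * gradNorm f (x + t • h) := by
        rw [integral_integral_swap hint]
    _ = ∫ t in Icc (0:ℝ) 1, L * ∫ x in cube n, gradNorm f x := by
        congr 1
        ext t
        rw [integral_const_mul, integral_cube_add hp.gradNorm]
    _ = L * ∫ x in cube n, gradNorm f x := by
        simp

/-- the L¹ distance of indicator functions under translations -/
theorem integral_ind_translate_le {n : ℕ} {E : Set (Fin n → ℝ)} (hE : MeasurableSet E)
    (hp : IsPeriodic E) {C : ℝ} (hC : ∀ X, TestField X → ∫ x in E ∩ cube n, divergence X x ≤ C)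
    (h : Fin n → ℝ) :
    ∫ x in cube n, |ind E (x + h) - ind E x| ≤ Real.sqrt (∑ i, h i ^ 2) * C := by
  have hlim : Tendsto (fun k => ∫ x in cube n, |moll (bump n k) E (x + h) - moll (bump n k) E x|)
      atTop (𝓝 (∫ x in cube n, |ind E (x + h) - ind E x|)) := by
    apply tendsto_integral_of_dominated_convergence (fun _ => (2:ℝ))
    · intro k
      have := (contDiff_moll (bump n k) hE).continuous
      exact Continuous.aestronglyMeasurable (by fun_prop)
    · exact integrable_const _
    · intro k
      filter_upwards with x
      have a1 := moll_nonneg (bump n k) E (x + h)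
      have a2 := moll_le_one (bump n k) hE (x + h)
      have a3 := moll_nonneg (bump n k) E x
      have a4 := moll_le_one (bump n k) hE x
      rw [Real.norm_eq_abs, abs_abs, abs_le]
      constructor <;> linarith
    · apply ae_restrict_of_ae
      have t1 := tendsto_moll_bump (n := n) hE
      have t2 : ∀ᵐ x : Fin n → ℝ, Tendsto (fun k => moll (bump n k) E (x + h)) atTop
          (𝓝 (ind E (x + h))) :=
        (measurePreserving_add_right volume h).quasiMeasurePreserving.ae t1
      filter_upwards [t1, t2] with x h1 h2
      exact (h2.sub h1).abs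
  refine le_of_tendsto hlim (Eventually.of_forall fun k => ?_)
  refine (integral_translate_le ((contDiff_moll (bump n k) hE).of_le one_le_two)
    (perFun_moll _ hp) h).trans ?_
  exact mul_le_mul_of_nonneg_left (integral_gradNorm_moll_le _ hE hp hC) (Real.sqrt_nonneg _)

/-- the mollification is L¹ close -/
theorem integral_moll_sub_le {n : ℕ} {E : Set (Fin n → ℝ)} (hE : MeasurableSet E)
    (hp : IsPeriodic E) {C : ℝ} (hC : ∀ X, TestField X → ∫ x in E ∩ cube n, divergence X x ≤ C)
    (φ : ContDiffBump (0 : Fin n → ℝ)) :
    ∫ x in cube n, |moll φ E x - ind E x| ≤ Real.sqrt n * φ.rOut * C := by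
  have hC0 : 0 ≤ C := by
    have h := hC (fun _ => 0) ⟨contDiff_const, fun _ _ => rfl, fun x => by simp⟩
    have h' : ∀ x, divergence (fun _ : Fin n → ℝ => (0 : Fin n → ℝ)) x = 0 := by
      intro x
      unfold divergence
      simp
    simp_rw [h'] at h
    simpa using h
  have hm : Measurable (fun p : (Fin n → ℝ) × (Fin n → ℝ) =>
      φ.normed volume p.2 * |ind E (p.1 - p.2) - ind E p.1|) := by
    apply Measurable.mul
    · exact (φ.continuous_normed.measurable).comp measurable_snd
    · have m1 : Measurable (fun p : (Fin n → ℝ) × (Fin n → ℝ) => ind E (p.1 - p.2)) :=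
        (measurable_indicator' hE).comp (measurable_fst.sub measurable_snd)
      have m2 : Measurable (fun p : (Fin n → ℝ) × (Fin n → ℝ) => ind E p.1) :=
        (measurable_indicator' hE).comp measurable_fst
      exact (m1.sub m2).norm
  have hle : ∀ x z, |ind E (x - z) - ind E x| ≤ 1 := by
    intro x z
    have a1 := indicator_nonneg' E (x - z)
    have a2 := indicator_le_one' E (x - z)
    have a3 := indicator_nonneg' E x
    have a4 := indicator_le_one' E x
    rw [abs_le]
    constructor <;> linarith
  have hint : Integrable (Function.uncurry fun (x z : Fin n → ℝ) =>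
      φ.normed volume z * |ind E (x - z) - ind E x|)
      ((volume.restrict (cube n)).prod volume) := by
    have hi : Integrable (fun p : (Fin n → ℝ) × (Fin n → ℝ) =>
        (1 : ℝ) * φ.normed volume p.2) ((volume.restrict (cube n)).prod volume) :=
      Integrable.mul_prod (integrable_const _) φ.integrable_normed
    refine hi.norm.mono' hm.aestronglyMeasurable ?_
    filter_upwards with p
    simp only [Function.uncurry]
    rw [norm_mul, norm_mul, norm_one, one_mul, Real.norm_eq_abs |ind E (p.1 - p.2) - ind E p.1|,
      abs_abs]
    exact mul_le_of_le_one_right (norm_nonneg _) (hle _ _)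
  have h1 : ∀ x, |moll φ E x - ind E x| ≤
      ∫ z, φ.normed volume z * |ind E (x - z) - ind E x| := by
    intro x
    have hz : Integrable (fun z => φ.normed volume z * ind E x) := φ.integrable_normed.mul_const _
    have e : moll φ E x - ind E x = ∫ z, φ.normed volume z * (ind E (x - z) - ind E x) := by
      rw [moll_apply]
      have : ind E x = ∫ z, φ.normed volume z * ind E x := by
        rw [integral_mul_const, φ.integral_normed, one_mul]
      conv_lhs => rw [this]
      rw [← integral_sub (integrable_moll_integrand φ hE x) hz]
      congr 1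
      ext z
      ring
    rw [e]
    refine (abs_integral_le_integral_abs).trans (le_of_eq ?_)
    congr 1
    ext z
    rw [abs_mul, abs_of_nonneg (φ.nonneg_normed z)]
  calc ∫ x in cube n, |moll φ E x - ind E x|
      ≤ ∫ x in cube n, ∫ z, φ.normed volume z * |ind E (x - z) - ind E x| := by
        apply integral_mono
        · have c1 := (contDiff_moll φ hE).continuous
          exact ((integrableOn_cube c1).sub (integrableOn_indicator hE)).abs
        · exact hint.integral_prod_left
        · exact h1
    _ = ∫ z, ∫ x in cube n, φ.normed volume z * |ind E (x - z) - ind E x| := by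
        rw [integral_integral_swap hint]
    _ ≤ ∫ z, φ.normed volume z * (Real.sqrt n * φ.rOut * C) := by
        apply integral_mono_of_nonneg
        · filter_upwards with z
          exact integral_nonneg fun x => mul_nonneg (φ.nonneg_normed z) (abs_nonneg _)
        · exact φ.integrable_normed.mul_const _
        · filter_upwards with z
          rw [integral_const_mul]
          by_cases hz : φ.normed volume z = 0
          · simp [hz]
          · have hz' : z ∈ Function.support (φ.normed volume) := hz
            rw [φ.support_normed_eq, Metric.mem_ball, dist_zero_right] at hz'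
            apply mul_le_mul_of_nonneg_left _ (φ.nonneg_normed z)
            have := integral_ind_translate_le hE hp hC (-z)
            simp only [← sub_eq_add_neg] at this
            refine this.trans ?_
            apply mul_le_mul_of_nonneg_right _ hC0
            rw [show Real.sqrt n * φ.rOut = Real.sqrt (n * φ.rOut ^ 2) by
              rw [Real.sqrt_mul (Nat.cast_nonneg n), Real.sqrt_sq φ.rOut_pos.le]]
            apply Real.sqrt_le_sqrt
            calc ∑ i, (-z) i ^ 2 ≤ ∑ _i : Fin n, φ.rOut ^ 2 := by
                  apply Finset.sum_le_sum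
                  intro i _
                  have b1 := norm_le_pi_norm z i
                  rw [Real.norm_eq_abs] at b1
                  have b2 : |(-z) i| ≤ |φ.rOut| := by
                    rw [Pi.neg_apply, abs_neg, abs_of_pos φ.rOut_pos]
                    exact b1.trans hz'.le
                  exact sq_le_sq.mpr b2
              _ = n * φ.rOut ^ 2 := by simp
    _ = Real.sqrt n * φ.rOut * C := by
        rw [integral_mul_const, φ.integral_normed, one_mul]

end Vale.Agent.P232.H109
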